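import Vale.Agent.Lib.P307.EmptyVocab

/-!
# P307: eventual categoricity for abstract elementary classes in the empty vocabulary

If `K` is an AEC in a language with no symbols, `LS(K) ≤ λ` and `K` is categorical in some
`κ > λ`, then `K` is categorical in every `κ' ≥ λ`.
-/

namespace Vale.Agent.Results.P307.EmptyVocabulary

open Vale.Agent.Lib.P307 Cardinal

universe u

theorem result (L : FirstOrder.Language.{u, u}) (hF : ∀ n, IsEmpty (L.Functions n))
    (hR : ∀ n, IsEmpty (L.Relations n)) (K : AEC L) (lam kap : Cardinal.{u})
    (hK : K.LS ≤ lam) (hkap : lam < kap) (hcat : K.Categorical kap)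
    (kap' : Cardinal.{u}) (h' : lam ≤ kap') : K.Categorical kap' :=
  empty_categoricity K hF hR lam kap hK hkap hcat kap' h'

end Vale.Agent.Results.P307.EmptyVocabulary
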