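import Vale.Agent.Lib.P307.Example

/-!
# P307: eventual categoricity in unary relational vocabularies, with the exact threshold

(1) If `K` is an AEC in a language with no function symbols and only unary relation symbols,
`LS(K) ≤ λ` and `K` is categorical in some `κ > 2 ^ λ`, then `K` is categorical in every
`κ' > 2 ^ λ`.
(2) For every infinite `λ` some such AEC with `LS(K) = λ` is categorical in every `κ > 2 ^ λ`
but not in `2 ^ λ`.
-/

namespace Vale.Agent.Results.P307.UnaryExactThreshold

open Vale.Agent.Lib.P307 Cardinal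

universe u

theorem result :
    (∀ (L : FirstOrder.Language.{u, u}), (∀ n, IsEmpty (L.Functions n)) →
      (∀ n, n ≠ 1 → IsEmpty (L.Relations n)) → ∀ (K : AEC L) (lam kap kap' : Cardinal.{u}),
        K.LS ≤ lam → 2 ^ lam < kap → K.Categorical kap → 2 ^ lam < kap' →
          K.Categorical kap') ∧
    (∀ lam : Cardinal.{u}, Cardinal.aleph0 ≤ lam → ∃ (L : FirstOrder.Language.{u, u})
      (_ : ∀ n, IsEmpty (L.Functions n)) (_ : ∀ n, n ≠ 1 → IsEmpty (L.Relations n))
      (K : AEC L), K.LS = lam ∧ (∀ kap, 2 ^ lam < kap → K.Categorical kap) ∧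
        ¬ K.Categorical (2 ^ lam)) :=
  ⟨fun _ hF hR K _ _ _ hK hkap hcat h' => unary_categoricity hF hR K hK hkap hcat h',
    fun lam h0 => exists_unary_example lam h0⟩

end Vale.Agent.Results.P307.UnaryExactThreshold
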