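import Vale.Agent.Lib.P307.Unary

/-!
# P307: eventual categoricity for abstract elementary classes in a unary relational vocabulary

If `K` is an AEC in a language with no function symbols and only unary relation symbols,
`LS(K) ≤ λ` and `K` is categorical in some `κ > 2 ^ λ`, then `K` is categorical in every
`κ' > 2 ^ λ`.
-/

namespace Vale.Agent.Results.P307.UnaryVocabulary

open Vale.Agent.Lib.P307 Cardinal

universe u

theorem result (L : FirstOrder.Language.{u, u}) (hF : ∀ n, IsEmpty (L.Functions n))
    (hR : ∀ n, n ≠ 1 → IsEmpty (L.Relations n)) (K : AEC L) (lam kap kap' : Cardinal.{u})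
    (hK : K.LS ≤ lam) (hkap : 2 ^ lam < kap) (hcat : K.Categorical kap)
    (h' : 2 ^ lam < kap') : K.Categorical kap' :=
  unary_categoricity hF hR K hK hkap hcat h'

end Vale.Agent.Results.P307.UnaryVocabulary
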